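import Mathlib

/-!
No faithful action of the `p`-adic integers on `ℝ^n` by triangular homeomorphisms.
-/

namespace Vale.Agent.Results.P228.NoTriangularAction

open Set

/-- An injective continuous monotone map of the line with `h` preserving a compact orbit fixes it. -/
lemma fixed_of_compact_orbit {G : Type*} [AddGroup G] (φ : G → ℝ → ℝ)
    (h0 : ∀ t, φ 0 t = t) (hadd : ∀ a b t, φ (a + b) t = φ a (φ b t))
    (hmono : ∀ a, Monotone (φ a)) {t : ℝ} (hc : IsCompact (range fun a => φ a t)) (g : G) :
    φ g t = t := by
  obtain ⟨M, ⟨b, hb⟩, hM⟩ := hc.exists_isGreatest ⟨t, 0, h0 t⟩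
  simp only at hb
  have hfix : ∀ a, φ a M = M := fun a => by
    have h1 : φ a M ≤ M := hM ⟨a + b, by rw [← hb]; exact hadd a b t⟩
    have h2 : φ (-a) M ≤ M := hM ⟨-a + b, by rw [← hb]; exact hadd (-a) b t⟩
    have := hmono a h2
    rw [← hadd, add_neg_cancel, h0] at this
    exact le_antisymm h1 this
  have : φ (-b) M = t := by rw [← hb, ← hadd, neg_add_cancel, h0]
  rw [hfix] at this
  rw [← this]; exact hfix g

/-- For every `n` and prime `p`, every continuous action of `ℤ_[p]` on `ℝ^n` by triangular maps
fails to be faithful: a nonzero element acts trivially. -/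
theorem result (p : ℕ) [Fact p.Prime] (n : ℕ) (act : ℤ_[p] → (Fin n → ℝ) → (Fin n → ℝ))
    (hcont : Continuous fun a : ℤ_[p] × (Fin n → ℝ) => act a.1 a.2)
    (h0 : ∀ x, act 0 x = x) (hadd : ∀ a b x, act (a + b) x = act a (act b x))
    (htri : ∀ a x y (i : Fin n), (∀ j ≤ i, x j = y j) → act a x i = act a y i) :
    ∃ g : ℤ_[p], g ≠ 0 ∧ ∀ x, act g x = x := by
  suffices key : ∀ k ≤ n, ∀ g x (i : Fin n), (i : ℕ) < k → act ((2 : ℕ) ^ k • g) x i = x i by
    refine ⟨(2 : ℕ) ^ n • (1 : ℤ_[p]), ?_, fun x => funext fun i => key n le_rfl 1 x i i.2⟩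
    rw [nsmul_eq_mul, mul_one]
    exact_mod_cast pow_ne_zero n two_ne_zero
  intro k
  induction k with
  | zero => intro _ g x i hi; omega
  | succ k ih =>
    intro hk g x i hi
    rcases Nat.lt_succ_iff_lt_or_eq.mp hi with hlt | heq
    · rw [pow_succ', mul_comm, mul_nsmul, ← mul_nsmul, mul_nsmul']
      exact ih (by omega) _ x i hlt
    · let H : AddSubgroup ℤ_[p] :=
        { carrier := {a | ∀ x (j : Fin n), (j : ℕ) < k → act a x j = x j}
          zero_mem' := fun x j _ => by rw [h0]
          add_mem' := fun {a b} ha hb x j hj => by rw [hadd, ha _ j hj, hb x j hj]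
          neg_mem' := fun {a} ha x j hj => by
            have := ha (act (-a) x) j hj
            rwa [← hadd, add_neg_cancel, h0, eq_comm] at this }
      have hH : (2 : ℕ) ^ k • g ∈ H := fun x j hj => ih (by omega) g x j hj
      have hclosed : IsClosed (H : Set ℤ_[p]) := by
        have : (H : Set ℤ_[p]) = ⋂ (y : Fin n → ℝ) (j : Fin n) (_ : (j : ℕ) < k),
            {a | act a y j = y j} := by
          ext a; simp only [mem_iInter]; rfl
        rw [this]
        exact isClosed_iInter fun y => isClosed_iInter fun j => isClosed_iInter fun _ =>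
          isClosed_eq ((continuous_apply j).comp (hcont.comp (by fun_prop : Continuous fun a =>
            ((a, y) : ℤ_[p] × (Fin n → ℝ))))) continuous_const
      let φ : H → ℝ → ℝ := fun a t => act a (Function.update x i t) i
      have φ0 : ∀ t, φ 0 t = t := fun t => by simp [φ, h0]
      have φadd : ∀ a b t, φ (a + b) t = φ a (φ b t) := fun a b t => by
        show act ((a : ℤ_[p]) + b) _ i = _
        rw [hadd]
        refine htri _ _ _ i fun j hj => ?_
        rcases eq_or_lt_of_le hj with rfl | hj'
        · simp [φ]
        · have hjk : (j : ℕ) < k := by rw [← heq]; exact hj'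
          rw [b.2 _ j hjk, Function.update_of_ne hj'.ne, Function.update_of_ne hj'.ne]
      have φc : ∀ a, Continuous (φ a) := fun a =>
        (continuous_apply i).comp (hcont.comp (by fun_prop : Continuous fun t : ℝ =>
          (((a : ℤ_[p]), Function.update x i t) : ℤ_[p] × (Fin n → ℝ))))
      have φinj : ∀ a, Function.Injective (φ a) := fun a s t hst => by
        have := congrArg (φ (-a)) hst
        rwa [← φadd, ← φadd, neg_add_cancel, φ0, φ0] at this
      have φmono : ∀ a, Monotone (φ (a + a)) := fun a s t hst => by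
        rw [φadd, φadd]
        rcases (φc a).strictMono_of_inj (φinj a) with hm | hm
        · exact hm.monotone (hm.monotone hst)
        · exact hm.antitone (hm.antitone hst)
      let D : H →+ H := nsmulAddMonoidHom 2
      let ψ : D.range → ℝ → ℝ := fun a => φ (a : H)
      have hcomp : IsCompact (range fun a : D.range => ψ a (x i)) := by
        have : CompactSpace H := isCompact_iff_compactSpace.mp hclosed.isCompact
        have e : (range fun a : D.range => ψ a (x i)) = range fun a : H => φ (a + a) (x i) := by
          ext v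
          constructor
          · rintro ⟨⟨_, a, rfl⟩, rfl⟩; exact ⟨a, by simp [ψ, D, two_nsmul]⟩
          · rintro ⟨a, rfl⟩; exact ⟨⟨D a, a, rfl⟩, by simp [ψ, D, two_nsmul]⟩
        rw [e]
        have hc2 : Continuous fun a : H =>
            ((((a + a : H) : ℤ_[p]), Function.update x i (x i)) : ℤ_[p] × (Fin n → ℝ)) := by
          simp only [AddSubgroup.coe_add]
          fun_prop
        exact isCompact_range ((continuous_apply i).comp (hcont.comp hc2))
      have hfix := fixed_of_compact_orbit ψ (fun t => φ0 t) (fun a b t => φadd _ _ t)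
        (fun a => by
          obtain ⟨_, b, rfl⟩ := a
          simpa [ψ, D, two_nsmul] using φmono b) hcomp ⟨D ⟨_, hH⟩, _, rfl⟩
      simp only [ψ, φ, D, nsmulAddMonoidHom_apply, AddSubgroup.coe_nsmul,
        Function.update_eq_self] at hfix
      rw [pow_succ', mul_nsmul']
      exact hfix

end Vale.Agent.Results.P228.NoTriangularAction
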